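import Vale.Agent.P315.MathlibUsed

namespace Vale.Agent.P315

/-- One single-symbol edit of a string: an insertion, a deletion or a substitution. -/
inductive Edit {α : Type*} : List α → List α → Prop
  | ins (u v : List α) (a : α) : Edit (u ++ v) (u ++ a :: v)
  | del (u v : List α) (a : α) : Edit (u ++ a :: v) (u ++ v)
  | sub (u v : List α) (a b : α) : Edit (u ++ a :: v) (u ++ b :: v)

/-- `Reach k x y`: the string `y` is obtained from `x` by exactly `k` single-symbol edits. -/
inductive Reach {α : Type*} : ℕ → List α → List α → Prop
  | zero (x : List α) : Reach 0 x x
  | succ {k : ℕ} {x y z : List α} : Reach k x y → Edit y z → Reach (k + 1) x z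

/-- The edit distance: the least number of single-symbol edits transforming `x` into `y`. -/
noncomputable def ed {α : Type*} (x y : List α) : ℕ := sInf {k | Reach k x y}

/-- Symbolwise encoding: replace every symbol `a` of `x` by the word `c a 0, c a 1, …`. -/
def encode {α β : Type*} {L : ℕ} (c : α → Fin L → β) (x : List α) : List β :=
  x.flatMap fun a => List.ofFn (c a)

end Vale.Agent.P315
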